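import Vale.Agent.P167.N.H192.Q.RatB
import Vale.Agent.P167.CAQ.J1

/-!
# P167, `q < 1`: arms and mixing next to a frozen arc of one colour
-/

namespace Vale.Agent.P167.N.CAQ.J

open Finset Relation Vale.Agent.P167.FK Vale.Agent.P167.FKA Vale.Agent.P167.H635
open Vale.Agent.P167.N.MIX
open Vale.Agent.P167.CAQ.J (Fz ArmB fz_fr fz_wr)
open Vale.Agent.P167.H192.Q (Fr Wr sq1 im_Bq mem_im sq1_inj loc_du ind_du)

variable {Q : ℝ} {x : ℤ × ℤ} {r R : ℤ} {A V : Finset (ℤ × ℤ)} {F : Cfg → ℝ} {ξ ξ' : Cfg}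

/-- **Arms of colour `b` next to a frozen arc of the other colour.** -/
theorem arm_b (hQ : Kit Q) {α C : ℝ} (h : ArmShp Q α C) (b : Bool) (hr : 1 ≤ r) (hrR : r ≤ R)
    (hξ : Good ξ) (hfz : Fz b x R A ξ) (hF0 : ∀ ω, 0 ≤ F ω)
    (hF : Ind (A ∩ (Bq x R \ Bq x r)) F) (hS : Shp A x r R) :
    Ex Q A ξ (fun ω => F ω * {ω | ArmB b x r R ω}.indicator 1 ω) ≤
      C * ((r : ℝ) / R) ^ α * Ex Q A ξ F := by
  cases b
  · have hd : ArmAtD Q x r R A (C * ((r : ℝ) / R) ^ α) := h _ r R _ hr hrR (shp_du hS)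
    exact hd.ex hQ.pos hξ (fun v hv hvA => fz_wr hfz v (ann_box hv) hvA) hF0 hF
  · exact (h x r R A hr hrR hS).ex hQ.pos hξ (fun v hv hvA => fz_fr hfz v (ann_box hv) hvA) hF0 hF

/-- **Mixing next to a frozen arc**, nonnegative functions. -/
theorem mix_b (hQ : Kit Q) {α C : ℝ} (hα : 0 < α) (hC : 0 < C) (h : ArmShp Q α C) {L : ℤ}
    (hL : RatS Q L) (b : Bool) (hr : 1 ≤ r) (hR : L * (L * r) ≤ R) (hVA : V ⊆ A) (hV : V ⊆ Bq x r)
    (hF0 : ∀ ω, 0 ≤ F ω) (hFV : Loc V F) (hξ : Good ξ) (hfz : Fz b x R A ξ) (hξ' : Good ξ')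
    (hfz' : Fz b x R A ξ') (hS : Shp A x r R) :
    |Ex Q A ξ F - Ex Q A ξ' F| ≤ 8 * (2 + 2 ^ α) * C * ((r : ℝ) / R) ^ (α / 2) * Ex Q A ξ' F := by
  have key : ∀ (x : ℤ × ℤ) (A V : Finset (ℤ × ℤ)) (F : Cfg → ℝ) (ξ ξ' : Cfg), V ⊆ A → V ⊆ Bq x r →
      (∀ ω, 0 ≤ F ω) → Loc V F → Good ξ → Fr x R A ξ → Good ξ' → Fr x R A ξ' → Shp A x r R →
      |Ex Q A ξ F - Ex Q A ξ' F| ≤
        8 * (2 + 2 ^ α) * C * ((r : ℝ) / R) ^ (α / 2) * Ex Q A ξ' F := by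
    intro x A V F ξ ξ' hVA hV hF0 hFV hξ hfr hξ' hfr' hS
    have hsc := H192.Q.scale_le hL hr hR
    have h1 := H192.Q.mix_two hQ h hL hr hsc.2 rfl hVA hV hF0 hFV hξ hξ' hfr hfr' hS
    have hr0 : (0 : ℝ) < r := by exact_mod_cast (by omega : 0 < r)
    have hR1 : (1 : ℤ) ≤ R := hr.trans (hsc.1.trans hsc.2)
    have hR0 : (0 : ℝ) < R := by exact_mod_cast (by omega : 0 < R)
    have hrR : (r : ℝ) ≤ R := by exact_mod_cast hsc.1.trans hsc.2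
    have ht1 : (r : ℝ) / R ≤ 1 := (div_le_one hR0).2 hrR
    have ht0 : 0 < (r : ℝ) / R := by positivity
    have htt : ((r : ℝ) / R) ^ α ≤ ((r : ℝ) / R) ^ (α / 2) :=
      Real.rpow_le_rpow_of_exponent_ge ht0 ht1 (by linarith)
    have n1 : 0 ≤ Ex Q A ξ' F := Ex_nonneg hQ.pos fun _ _ => hF0 _
    have h2 : (0 : ℝ) < 2 ^ α := by positivity
    refine h1.trans (mul_le_mul_of_nonneg_right ?_ n1)
    have h3 : C * ((r : ℝ) / R) ^ α ≤ C * ((r : ℝ) / R) ^ (α / 2) :=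
      mul_le_mul_of_nonneg_left htt hC.le
    have h4 : 0 ≤ C * ((r : ℝ) / R) ^ (α / 2) := by positivity
    have h5 : 0 ≤ 2 ^ α * (C * ((r : ℝ) / R) ^ (α / 2)) := by positivity
    calc 6 * (C * ((r : ℝ) / R) ^ α) ≤ 6 * (C * ((r : ℝ) / R) ^ (α / 2)) := by linarith
      _ ≤ 16 * (C * ((r : ℝ) / R) ^ (α / 2)) + 8 * (2 ^ α * (C * ((r : ℝ) / R) ^ (α / 2))) := by
          linarith
      _ = _ := by ring
  cases b
  · rw [H192.Q.ex_du hQ hξ F, H192.Q.ex_du hQ hξ' F]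
    exact key (sq1 x) (A.image sq1) (V.image sq1) _ _ _ (Finset.image_subset_image hVA)
      (by rw [← im_Bq]; exact Finset.image_subset_image hV) (fun _ => hF0 _) (loc_du hFV)
      (f_dual.1 _ hξ) (fz_wr hfz).du (f_dual.1 _ hξ') (fz_wr hfz').du (shp_du hS)
  · exact key x A V F ξ ξ' hVA hV hF0 hFV hξ hfz hξ' hfz' hS

/-- **Mixing next to a frozen arc**, functions of any sign. -/
theorem mix_abs (hQ : Kit Q) {α C : ℝ} (hα : 0 < α) (hC : 0 < C) (h : ArmShp Q α C) {L : ℤ}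
    (hL : RatS Q L) (b : Bool) (hr : 1 ≤ r) (hR : L * (L * r) ≤ R) (hVA : V ⊆ A) (hV : V ⊆ Bq x r)
    (hFV : Loc V F) (hξ : Good ξ) (hfz : Fz b x R A ξ) (hξ' : Good ξ')
    (hfz' : Fz b x R A ξ') (hS : Shp A x r R) :
    |Ex Q A ξ F - Ex Q A ξ' F| ≤
      8 * (2 + 2 ^ α) * C * ((r : ℝ) / R) ^ (α / 2) * Ex Q A ξ' (fun ω => |F ω|) := by
  have h1 := mix_b hQ hα hC h hL b hr hR hVA hV (F := fun ω => max (F ω) 0)
    (fun _ => le_max_right _ _) (fun ω ω' hw => by simp only [hFV ω ω' hw]) hξ hfz hξ' hfz' hS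
  have h2 := mix_b hQ hα hC h hL b hr hR hVA hV (F := fun ω => max (-F ω) 0)
    (fun _ => le_max_right _ _) (fun ω ω' hw => by simp only [hFV ω ω' hw]) hξ hfz hξ' hfz' hS
  have e1 : ∀ ξ, Ex Q A ξ F = Ex Q A ξ (fun ω => max (F ω) 0) -
      Ex Q A ξ (fun ω => max (-F ω) 0) := by
    intro ξ
    rw [← Ex_sub]
    refine Ex_congr fun S _ => ?_
    have := max_zero_sub_max_neg_zero_eq_self (F (cf A ξ S))
    linarith
  have e2 : Ex Q A ξ' (fun ω => |F ω|) = Ex Q A ξ' (fun ω => max (F ω) 0) +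
      Ex Q A ξ' (fun ω => max (-F ω) 0) := by
    rw [← Ex_add]
    refine Ex_congr fun S _ => ?_
    have := max_zero_add_max_neg_zero_eq_abs_self (F (cf A ξ' S))
    linarith
  rw [e1 ξ, e1 ξ', e2]
  set κ := 8 * (2 + 2 ^ α) * C * ((r : ℝ) / R) ^ (α / 2)
  rw [abs_le] at h1 h2 ⊢
  constructor <;> nlinarith [h1.1, h1.2, h2.1, h2.2]

end Vale.Agent.P167.N.CAQ.J
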