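import Vale.Agent.P167.H635.Shape
import Vale.Agent.P167.CAQ.J5

/-!
# P167, `q < 1`: shapes of an enlarged polygon in small boxes
-/

set_option autoImplicit false

namespace Vale.Agent.P167.N.CAQ.J

open Finset Vale.Agent.P167.FK Vale.Agent.P167.FKA Vale.Agent.P167.H635
open Vale.Agent.P167.E6 (IsPolygon Encloses dir face)
open Vale.Agent.P167.CAQ.J (mem_enl_div corner_cell)

variable {S : Finset (ℤ × ℤ)} {n : ℕ} {l : ℕ} {p : ZMod l → ℤ × ℤ} {x : ℤ × ℤ} {r R : ℤ}

/-- In all boxes of size at most `R` the domain is the intersection or the union of two half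
planes. -/
def ShE (D : Finset (ℤ × ℤ)) (R : ℤ) : Prop :=
  ∀ (y : ℤ × ℤ) (r R' : ℤ), R' ≤ R → Shp D y r R'

theorem ShE.mono {D : Finset (ℤ × ℤ)} {R' : ℤ} (h : ShE D R) (hR : R' ≤ R) : ShE D R' :=
  fun y r T hT => h y r T (hT.trans hR)

/-- In a box which is smaller than the cells an enlarged polygon is the intersection or the union of
two half planes. -/
theorem shp_enl (hp : IsPolygon p) (hE : Encloses p S) (hn : 0 < n) (hR : 2 * R ≤ n) :
    Shp (CA.enl S n) x r R := by
  have hn' : (0 : ℤ) < n := by exact_mod_cast hn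
  set a : ℤ := (x.1 - R) / n with ha
  set b : ℤ := (x.2 - R) / n with hb
  have a1 := Int.mul_ediv_add_emod (x.1 - R) n
  have a2 := Int.emod_nonneg (x.1 - R) hn'.ne'
  have a3 := Int.emod_lt_of_pos (x.1 - R) hn'
  have b1 := Int.mul_ediv_add_emod (x.2 - R) n
  have b2 := Int.emod_nonneg (x.2 - R) hn'.ne'
  have b3 := Int.emod_lt_of_pos (x.2 - R) hn'
  rw [← ha] at a1
  rw [← hb] at b1
  set c : ℤ := n * a + n with hc
  set d : ℤ := n * b + n with hd
  have k1 : ∀ v ∈ Ann x r R, (v.1 < c → v.1 / (n : ℤ) = a) ∧ (c ≤ v.1 → v.1 / (n : ℤ) = a + 1) := by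
    intro v hv
    have h := mem_Bq.1 (ann_box hv)
    constructor
    · intro h1
      rw [Int.ediv_eq_iff_of_pos hn']
      constructor <;> nlinarith
    · intro h1
      rw [Int.ediv_eq_iff_of_pos hn']
      constructor <;> nlinarith
  have k2 : ∀ v ∈ Ann x r R, (v.2 < d → v.2 / (n : ℤ) = b) ∧ (d ≤ v.2 → v.2 / (n : ℤ) = b + 1) := by
    intro v hv
    have h := mem_Bq.1 (ann_box hv)
    constructor
    · intro h1
      rw [Int.ediv_eq_iff_of_pos hn']
      constructor <;> nlinarith
    · intro h1
      rw [Int.ediv_eq_iff_of_pos hn']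
      constructor <;> nlinarith
  have hL1 : HP fun v => v.1 < c := ⟨c, Or.inl fun _ => Iff.rfl⟩
  have hG1 : HP fun v => c ≤ v.1 := ⟨c, Or.inr (Or.inl fun _ => Iff.rfl)⟩
  have hL2 : HP fun v => v.2 < d := ⟨d, Or.inr (Or.inr (Or.inl fun _ => Iff.rfl))⟩
  have hG2 : HP fun v => d ≤ v.2 := ⟨d, Or.inr (Or.inr (Or.inr fun _ => Iff.rfl))⟩
  have key : ∀ v ∈ Ann x r R, (v ∈ CA.enl S n ↔ (v.1 < c ∧ v.2 < d ∧ (a, b) ∈ S) ∨
      (c ≤ v.1 ∧ v.2 < d ∧ (a + 1, b) ∈ S) ∨ (v.1 < c ∧ d ≤ v.2 ∧ (a, b + 1) ∈ S) ∨
      (c ≤ v.1 ∧ d ≤ v.2 ∧ (a + 1, b + 1) ∈ S)) := by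
    intro v hv
    rw [mem_enl_div hn]
    rcases lt_or_ge v.1 c with h1 | h1 <;> rcases lt_or_ge v.2 d with h2 | h2
    · rw [(k1 v hv).1 h1, (k2 v hv).1 h2]
      constructor
      · exact fun h => Or.inl ⟨h1, h2, h⟩
      · rintro (h | h | h | h)
        · exact h.2.2
        · exact absurd h.1 (by omega)
        · exact absurd h.2.1 (by omega)
        · exact absurd h.1 (by omega)
    · rw [(k1 v hv).1 h1, (k2 v hv).2 h2]
      constructor
      · exact fun h => Or.inr (Or.inr (Or.inl ⟨h1, h2, h⟩))
      · rintro (h | h | h | h)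
        · exact absurd h.2.1 (by omega)
        · exact absurd h.1 (by omega)
        · exact h.2.2
        · exact absurd h.1 (by omega)
    · rw [(k1 v hv).2 h1, (k2 v hv).1 h2]
      constructor
      · exact fun h => Or.inr (Or.inl ⟨h1, h2, h⟩)
      · rintro (h | h | h | h)
        · exact absurd h.1 (by omega)
        · exact h.2.2
        · exact absurd h.1 (by omega)
        · exact absurd h.2.1 (by omega)
    · rw [(k1 v hv).2 h1, (k2 v hv).2 h2]
      constructor
      · exact fun h => Or.inr (Or.inr (Or.inr ⟨h1, h2, h⟩))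
      · rintro (h | h | h | h)
        · exact absurd h.1 (by omega)
        · exact absurd h.2.1 (by omega)
        · exact absurd h.1 (by omega)
        · exact h.2.2
  by_cases m1 : (a, b) ∈ S <;> by_cases m2 : (a + 1, b) ∈ S <;>
    by_cases m3 : (a, b + 1) ∈ S <;> by_cases m4 : (a + 1, b + 1) ∈ S
  · exact shp_full fun v hv => (key v hv).2 (by
      rcases lt_or_ge v.1 c with h1 | h1 <;> rcases lt_or_ge v.2 d with h2 | h2 <;> tauto)
  · refine shp_or hL1 hL2 fun v hv => (key v hv).trans ?_
    simp only [m1, m2, m3, m4, and_true, and_false, or_false]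
    omega
  · refine shp_or hG1 hL2 fun v hv => (key v hv).trans ?_
    simp only [m1, m2, m3, m4, and_true, and_false, false_or]
    omega
  · refine shp_half hL2 fun v hv => (key v hv).trans ?_
    simp only [m1, m2, m3, m4, and_true, and_false, or_false, false_or]
    omega
  · refine shp_or hL1 hG2 fun v hv => (key v hv).trans ?_
    simp only [m1, m2, m3, m4, and_true, and_false, or_false, false_or]
    omega
  · refine shp_half hL1 fun v hv => (key v hv).trans ?_
    simp only [m1, m2, m3, m4, and_true, and_false, or_false, false_or]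
    omega
  · -- the diagonal
    exfalso
    rcases corner_cell hp hE m2 m3 (by omega) (by omega) with h | h
    · exact h m1
    · exact h m4
  · refine shp_and hL1 hL2 fun v hv => (key v hv).trans ?_
    simp only [m1, m2, m3, m4, and_true, and_false, or_false, false_or]
  · refine shp_or hG1 hG2 fun v hv => (key v hv).trans ?_
    simp only [m1, m2, m3, m4, and_true, and_false, or_false, false_or]
    omega
  · exfalso
    rcases corner_cell hp hE m1 m4 (by omega) (by omega) with h | h
    · exact h m2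
    · exact h m3
  · refine shp_half hG1 fun v hv => (key v hv).trans ?_
    simp only [m1, m2, m3, m4, and_true, and_false, or_false, false_or]
    omega
  · refine shp_and hG1 hL2 fun v hv => (key v hv).trans ?_
    simp only [m1, m2, m3, m4, and_true, and_false, or_false, false_or]
  · refine shp_half hG2 fun v hv => (key v hv).trans ?_
    simp only [m1, m2, m3, m4, and_true, and_false, or_false, false_or]
    omega
  · refine shp_and hL1 hG2 fun v hv => (key v hv).trans ?_
    simp only [m1, m2, m3, m4, and_true, and_false, or_false, false_or]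
  · refine shp_and hG1 hG2 fun v hv => (key v hv).trans ?_
    simp only [m1, m2, m3, m4, and_true, and_false, false_or]
  · exact shp_none fun v hv h => by
      have := (key v hv).1 h
      tauto

theorem she_enl (hp : IsPolygon p) (hE : Encloses p S) (hn : 0 < n) (hR : 2 * R ≤ n) :
    ShE (CA.enl S n) R := fun _ _ _ hT => shp_enl hp hE hn (by omega)

end Vale.Agent.P167.N.CAQ.J
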