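import Vale.Agent.P167.N.Kit
import Vale.Agent.P167.N.CAQ.J1
import Vale.Agent.P167.N.CAQ.Shp
import Vale.Agent.P167.N.H562.Q.CB2
import Vale.Agent.P167.N.H562.Q.CB3
import Vale.Agent.P167.CAQ.J2

/-!
# P167, `q < 1`: the number of the pieces near a frozen arc (port of `CAQ.J2`)
-/

set_option autoImplicit false

namespace Vale.Agent.P167.N.CAQ.J

open Vale.Agent.P167.CAQ.J Vale.Agent.P167.CAQ

open Finset Relation Vale.Agent.P167.FK Vale.Agent.P167.FKA

open Vale.Agent.P145.FB (PStep PConn)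

open Vale.Agent.P167.BR

open Vale.Agent.P167.H166 (bxx mem_bxx)

open Vale.Agent.P167.H167 (Bg isSeg exists_far_head)

open Vale.Agent.P167.H562.QM (OneC macro_B crossB ZC ZC_seg ZC_loc)

open Vale.Agent.P167.QC (sd sd_step sd_cor sd_par)

variable {Q : ℝ} {x : ℤ × ℤ} {r R : ℤ} {D : Finset (ℤ × ℤ)} {ω η : Cfg} {A : Finset Ed}

/-- **The number of the pieces of the size of the box.** -/
theorem cnt_mid (hQ : Kit Q) (h : RSW Q) (Λ : ℕ) : ∃ C : ℝ, 0 < C ∧
    ∀ (D : Finset (ℤ × ℤ)) (η : Cfg), Good η → ∀ (x : ℤ × ℤ) (L d R : ℤ), 0 ≤ L → 1 ≤ d →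
      L ≤ Λ * d → L + d ≤ R → OC x R D η →
      Ex Q D η (fun ω => ((Bg D x L (d : ℝ) ω).card : ℝ)) ≤ C := by
  have hQ_pos := hQ.pos
  classical
  have hQ0 : 0 < Q := by linarith
  obtain ⟨ε, C, ρ0, -, hC, hρ0, hmac⟩ := Vale.Agent.P167.N.H562.QM.macro_B hQ h 1 Λ 1 0 one_pos (Nat.cast_nonneg _)
  refine ⟨C + 2 * (2 * (Λ * ρ0) + 1) ^ 2, by positivity, fun D η hη x L d R hL hd hLd hR hOC => ?_⟩
  by_cases hdρ : ρ0 ≤ (d : ℝ)
  · obtain ⟨N, -, hN, hEx⟩ := hmac d hdρ x (bxx x L) (fun v hv => by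
      have h1 := mem_bxx.1 hv
      have h2 : nm (v - x) ≤ Λ * d := h1.trans hLd
      exact_mod_cast h2) (fun i => i.elim0)
    have h1 := hEx D η hη (fun y a ha hv => hOC y a ha fun v hv' => by
      obtain ⟨u, hu, h2⟩ := hv v hv'
      have h3 := mem_bxx.1 hu
      have h4 : nm (v - u) ≤ d := by
        rw [one_mul] at h2
        exact_mod_cast h2
      have h5 := H45.nm_sub_le v u x
      linarith) (fun _ => 1) (fun _ => zero_le_one) (fun _ _ _ => rfl)
    rw [Ex_const hQ0] at h1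
    have h2 : Ex Q D η (fun ω => ((Bg D x L (d : ℝ) ω).card : ℝ)) ≤
        Ex Q D η (fun ω => 1 * Real.exp (1 * (N ω : ℝ))) := by
      refine Ex_mono hQ0 fun S _ => ?_
      set ω := cf D η S
      have h3 : (Bg D x L (d : ℝ) ω).card ≤ N ω := by
        refine hN ω _ (fun γ hγ => isSeg (Finset.mem_filter.1 hγ).1)
          (disj_pcs (Finset.filter_subset _ _)) fun γ hγ => ?_
        obtain ⟨h4, ⟨e, he, h5⟩, h6⟩ := Finset.mem_filter.1 hγ
        refine ⟨⟨e, he, mem_bxx.2 h5⟩, ?_⟩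
        unfold Small at h6
        push Not at h6
        obtain ⟨u, hu, v, hv, h7⟩ := h6
        unfold vs at hu hv
        obtain ⟨e1, he1, rfl⟩ := Finset.mem_image.1 hu
        obtain ⟨e2, he2, rfl⟩ := Finset.mem_image.1 hv
        exact ⟨e1, he1, e2, he2, by rw [one_mul]; exact h7⟩
      have h4 : ((Bg D x L (d : ℝ) ω).card : ℝ) ≤ N ω := by exact_mod_cast h3
      have h5 := Real.add_one_le_exp (N ω : ℝ)
      rw [one_mul, one_mul]
      linarith
    have h3 : 0 ≤ 2 * (2 * ((Λ : ℝ) * ρ0) + 1) ^ 2 := by positivity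
    linarith
  · push Not at hdρ
    have h1 : Ex Q D η (fun ω => ((Bg D x L (d : ℝ) ω).card : ℝ)) ≤
        Ex Q D η (fun _ => 2 * (2 * (Λ * ρ0) + 1) ^ 2) := by
      refine Ex_mono hQ0 fun S _ => ?_
      refine (card_Bg_le D x hL d _).trans ?_
      have h2 : (L : ℝ) ≤ Λ * d := by exact_mod_cast hLd
      have h3 : (L : ℝ) ≤ Λ * ρ0 :=
        h2.trans (mul_le_mul_of_nonneg_left hdρ.le (Nat.cast_nonneg _))
      have h4 : (0 : ℝ) ≤ L := by exact_mod_cast hL
      have h5 : (2 * (L : ℝ) + 1) ^ 2 ≤ (2 * (Λ * ρ0) + 1) ^ 2 :=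
        pow_le_pow_left₀ (by linarith) (by linarith) 2
      linarith
    rw [Ex_const hQ0] at h1
    linarith

/-- **The number of the pieces from a small box to a large distance**, next to a frozen arc. -/
theorem cnt_far (hQ : Kit Q) (h : RSW Q) {α C₀ : ℝ} (hα : 0 < α) (hC₀ : 0 < C₀)
    (harm : H635.ArmShp Q α C₀) : ∃ C : ℝ, 0 < C ∧
    ∀ (b : Bool) (D : Finset (ℤ × ℤ)) (η : Cfg), Good η → ∀ (x : ℤ × ℤ) (L d R : ℤ), 1 ≤ L →
      L ≤ d → 2 * d ≤ R → Fz b x R D η → OC x R D η → ShE D R →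
      Ex Q D η (fun ω => ((Bg D x L (d : ℝ) ω).card : ℝ)) ≤ C * ((L : ℝ) / d) ^ α := by
  have hQ_pos := hQ.pos
  classical
  have hQ0 : 0 < Q := by linarith
  obtain ⟨C1, hC1, hmid⟩ := cnt_mid hQ h 1
  obtain ⟨n, l, C3, hn4, hl0, hC3, hcr⟩ := Vale.Agent.P167.N.H562.QM.crossB hQ h
  have hn4' : (4 : ℤ) ≤ n := by exact_mod_cast hn4
  set N : ℤ := 16 * (n + 3) with hN
  have hNR : (0 : ℝ) < N := by
    have : 0 < N := by omega
    exact_mod_cast this
  refine ⟨(C1 + C3 * C₀ / l) * (N : ℝ) ^ α, by positivity,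
    fun b D η hη x L d R hL hLd hdR hfz hOC hSE => ?_⟩
  have hLR : (1 : ℝ) ≤ L := by exact_mod_cast hL
  have hdR' : (L : ℝ) ≤ d := by exact_mod_cast hLd
  have hd0 : (0 : ℝ) < d := by linarith
  have hratio : 0 ≤ ((L : ℝ) / d) ^ α := Real.rpow_nonneg (by positivity) _
  by_cases hbig : d < N * L
  · -- comparable scales
    have h1 := hmid D η hη x L d R (by omega) (by omega) (by push_cast; omega) (by omega) hOC
    have h2 : 1 ≤ (N : ℝ) ^ α * ((L : ℝ) / d) ^ α := by
      rw [← Real.mul_rpow hNR.le (by positivity)]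
      refine Real.one_le_rpow ?_ hα.le
      rw [← mul_div_assoc, le_div_iff₀ hd0, one_mul]
      exact_mod_cast hbig.le
    have h3 : 0 ≤ C3 * C₀ / l := by positivity
    have h5 : C1 + C3 * C₀ / l ≤ (C1 + C3 * C₀ / l) * ((N : ℝ) ^ α * ((L : ℝ) / d) ^ α) :=
      le_mul_of_one_le_right (by positivity) h2
    calc Ex Q D η (fun ω => ((Bg D x L (d : ℝ) ω).card : ℝ)) ≤ C1 := h1
      _ ≤ C1 + C3 * C₀ / l := by linarith
      _ ≤ _ := h5
      _ = _ := by ring
  · push Not at hbig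
    set R1 : ℤ := (n + 2) * L + 2 with hR1
    set R2 : ℤ := d / 4 with hR2
    have hnL : (n : ℤ) * 1 ≤ n * L := mul_le_mul_of_nonneg_left hL (by omega)
    have hdL : 16 * (n * L) + 48 * L ≤ d := by rw [hN] at hbig; linarith
    have h12 : R1 ≤ R2 := by
      rw [hR1, hR2]
      have : (n + 2) * L = n * L + 2 * L := by ring
      omega
    have hR1p : 1 ≤ R1 := by
      have : 0 ≤ (n + 2) * L := by positivity
      omega
    -- a large piece gives a crossing and an arm
    have hpt : ∀ ω, ((Bg D x L (d : ℝ) ω).card : ℝ) ≤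
        l⁻¹ * (Real.exp (l * (ZC n x L ω : ℝ)) * {ω | ArmB b x R1 R2 ω}.indicator 1 ω) := by
      intro ω
      have hfar : ∀ A ∈ Bg D x L (d : ℝ) ω, ∃ e' ∈ A, d / 2 ≤ nm (hdv e' - x) := by
        intro A hA
        obtain ⟨e', he', h2⟩ := exists_far_head (Finset.mem_filter.1 hA).2.2 x
        refine ⟨e', he', ?_⟩
        have h3 : (d : ℝ) ≤ ((2 * nm (hdv e' - x) : ℤ) : ℝ) := by push_cast; linarith
        have h4 : d ≤ 2 * nm (hdv e' - x) := by exact_mod_cast h3
        omega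
      rcases Finset.eq_empty_or_nonempty (Bg D x L (d : ℝ) ω) with h0 | ⟨A, hA⟩
      · rw [h0]
        have := ind_nonneg {ω | ArmB b x R1 R2 ω} ω
        have := (Real.exp_pos (l * (ZC n x L ω : ℝ))).le
        simp only [Finset.card_empty, Nat.cast_zero]
        positivity
      · obtain ⟨hA1, ⟨e, he, h1⟩, -⟩ := Finset.mem_filter.1 hA
        obtain ⟨e', he', h2⟩ := hfar A hA
        have harmω : ArmB b x R1 R2 ω := by
          refine arm_piece b hA1 he he' h1 h2 ?_ ?_ h12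
          · rw [hR1]
            have : (n + 2) * L = n * L + 2 * L := by ring
            omega
          · rw [hR2]; omega
        rw [Set.indicator_of_mem (show ω ∈ {ω | ArmB b x R1 R2 ω} from harmω)]
        have hcard : (Bg D x L (d : ℝ) ω).card ≤ ZC n x L ω := by
          refine ZC_seg n x hL ω _ (fun γ hγ => isSeg (Finset.mem_filter.1 hγ).1)
            (disj_pcs (Finset.filter_subset _ _)) fun γ hγ => ?_
          obtain ⟨f', hf', h3⟩ := hfar γ hγ
          refine ⟨(Finset.mem_filter.1 hγ).2.1, f', hf', le_trans ?_ h3⟩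
          have : (n + 2) * L = n * L + 2 * L := by ring
          omega
        have hcard' : ((Bg D x L (d : ℝ) ω).card : ℝ) ≤ ZC n x L ω := by exact_mod_cast hcard
        have h5 := Real.add_one_le_exp (l * (ZC n x L ω : ℝ))
        have h6 : (ZC n x L ω : ℝ) ≤ l⁻¹ * Real.exp (l * (ZC n x L ω : ℝ)) := by
          rw [inv_mul_eq_div, le_div_iff₀ hl0]
          linarith
        simp only [Pi.one_apply, mul_one]
        exact hcard'.trans h6
    have h1 : Ex Q D η (fun ω => ((Bg D x L (d : ℝ) ω).card : ℝ)) ≤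
        l⁻¹ * Ex Q D η (fun ω => Real.exp (l * (ZC n x L ω : ℝ)) *
          {ω | ArmB b x R1 R2 ω}.indicator 1 ω) := by
      rw [← Ex_mul_left]
      exact Ex_mono hQ0 fun S _ => hpt _
    have h2 := arm_b hQ harm b hR1p h12 hη (hfz.mono (r := R2) (by rw [hR2]; omega))
      (F := fun ω => Real.exp (l * (ZC n x L ω : ℝ))) (fun _ => (Real.exp_pos _).le) (by
        intro ω ω' hω
        have := ZC_loc n x (r := L) (by omega) (ω := ω) (ω' := ω') fun v hv => hω v fun hv' => by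
          have h3 := (Finset.mem_sdiff.1 (Finset.mem_inter.1 hv').2).2
          apply h3
          rw [H167.Q.mem_Bq]
          simp only [nm, Prod.fst_sub, Prod.snd_sub, max_le_iff, abs_le] at hv
          omega
        simp only [this]) (hSE x R1 R2 (by rw [hR2]; omega))
    have h3 := hcr x L hL D η (fun _ => 1) hη (fun y a ha hya => hOC y a ha fun v hv => by
        have hv := hya hv
        rw [mem_bxx] at hv
        have : ((n : ℤ) + 1) * L = n * L + L := by ring
        omega) (fun _ => zero_le_one) (fun _ _ _ => rfl)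
    rw [Ex_const hQ0] at h3
    simp only [one_mul, mul_one] at h3
    have h4 : ((R1 : ℝ) / R2) ^ α ≤ (N : ℝ) ^ α * ((L : ℝ) / d) ^ α := by
      rw [← Real.mul_rpow hNR.le (by positivity)]
      have hR2p : (0 : ℝ) < R2 := by
        have : 0 < R2 := by omega
        exact_mod_cast this
      refine Real.rpow_le_rpow (by positivity) ?_ hα.le
      rw [div_le_iff₀ hR2p, ← mul_div_assoc, div_mul_eq_mul_div, le_div_iff₀ hd0]
      have k1 : R1 ≤ (n + 4) * L := by rw [hR1]; nlinarith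
      have k2 : d ≤ 4 * R2 + 3 := by rw [hR2]; omega
      have k3 : d ≤ 8 * R2 := by omega
      have k4 : R1 * d ≤ N * L * R2 := by
        calc R1 * d ≤ ((n + 4) * L) * (8 * R2) :=
              mul_le_mul k1 k3 (by omega) (by positivity)
          _ ≤ N * L * R2 := by
              rw [hN]
              have : 0 ≤ L * R2 := mul_nonneg (by omega) (by omega)
              nlinarith
      exact_mod_cast k4
    have h0 : 0 ≤ Ex Q D η (fun ω => Real.exp (l * (ZC n x L ω : ℝ))) :=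
      Ex_nonneg hQ0 fun S _ => (Real.exp_pos _).le
    have hNα : 0 ≤ (N : ℝ) ^ α * ((L : ℝ) / d) ^ α := mul_nonneg (Real.rpow_nonneg hNR.le _) hratio
    calc Ex Q D η (fun ω => ((Bg D x L (d : ℝ) ω).card : ℝ))
        ≤ l⁻¹ * (C₀ * ((R1 : ℝ) / R2) ^ α * Ex Q D η (fun ω => Real.exp (l * (ZC n x L ω : ℝ)))) :=
          h1.trans (mul_le_mul_of_nonneg_left h2 (inv_nonneg.2 hl0.le))
      _ ≤ l⁻¹ * (C₀ * ((N : ℝ) ^ α * ((L : ℝ) / d) ^ α) * C3) := by
          refine mul_le_mul_of_nonneg_left ?_ (inv_nonneg.2 hl0.le)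
          exact mul_le_mul (mul_le_mul_of_nonneg_left h4 hC₀.le) h3 h0 (by positivity)
      _ = (C3 * C₀ / l) * (N : ℝ) ^ α * ((L : ℝ) / d) ^ α := by field_simp
      _ ≤ _ := by
          have : 0 ≤ C1 * ((N : ℝ) ^ α * ((L : ℝ) / d) ^ α) := mul_nonneg hC1.le hNα
          nlinarith

end Vale.Agent.P167.N.CAQ.J
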