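import Vale.Agent.P167.N.Kit
import Vale.Agent.P167.N.CAQ.J1
import Vale.Agent.P167.N.CAQ.Shp
import Vale.Agent.P167.CAQ.J3

/-!
# P167, `q < 1`: one scale (port of `CAQ.J3`)
-/

set_option autoImplicit false

namespace Vale.Agent.P167.N.CAQ.J

open Vale.Agent.P167.CAQ.J Vale.Agent.P167.CAQ

open Finset Relation Vale.Agent.P167.FK Vale.Agent.P167.FKA

open Vale.Agent.P167.BR

open Vale.Agent.P167.H167 (Geo sgm abs_sgm_le Q1 Q2 cls cls_spec cls_eq pcs_filter_eq Bg)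

variable {Q : ℝ} {D : Finset (ℤ × ℤ)} {ω η : Cfg} {p z z' : ℤ × ℤ} {κ : Finset Ed → ℝ} {K : ℕ} {m : ℤ}

/-- One scale. -/
theorem one_scale (hQ : Kit Q) {α C₀ : ℝ} (hα : 0 < α) (hC₀ : 0 < C₀) (harm : H635.ArmShp Q α C₀)
    {L : ℤ} (hL : N.MIX.RatS Q L) {C1 : ℝ}
    (hmid : ∀ (D : Finset (ℤ × ℤ)) (η : Cfg), Good η → ∀ (x : ℤ × ℤ) (L d R : ℤ), 0 ≤ L → 1 ≤ d →
      L ≤ ((2 * (K + 1) : ℕ) : ℤ) * d → L + d ≤ R → OC x R D η →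
      Ex Q D η (fun ω => ((Bg D x L (d : ℝ) ω).card : ℝ)) ≤ C1)
    (b : Bool) {η₁ η₀ : Cfg} (hη₁ : Good η₁) (hη₀ : Good η₀) {y : ℤ × ℤ} {R T : ℤ}
    (hTR : L * (L * T) ≤ R) (h1 : Fz b y R D η₁) (h0 : Fz b y R D η₀) (hOC : OC y R D η₀)
    (hSE : ShE D R) {j : ℕ} (hj : 8 * ((K : ℤ) + 1) * 2 ^ j ≤ T) {P : Finset Ed → Prop} (hP : ∀ A, P A → Q1 K y j A)
    {σ κ : Finset Ed → ℝ} {M : ℝ} (hσ : ∀ A, |σ A| ≤ 1) (hκ : ∀ A, |κ A| ≤ M) :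
    |Ex Q D η₁ (NK D P σ κ) - Ex Q D η₀ (NK D P σ κ)| ≤
      8 * (2 + 2 ^ α) * C₀ * (4 * ((K : ℝ) + 1)) ^ (α / 2) * C1 * M * (((2 : ℝ) ^ j / T) ^ (α / 2)) := by
  have hQ_pos := hQ.pos
  classical
  have hQ0 : 0 < Q := by linarith
  have hM : 0 ≤ M := (abs_nonneg _).trans (hκ ∅)
  have hL2 := hL.1
  have h2j : (1 : ℤ) ≤ 2 ^ j := one_le_pow₀ (by norm_num)
  have hKj : (1 : ℤ) ≤ ((K : ℤ) + 1) * 2 ^ j := by nlinarith
  have hT : 1 ≤ T := by nlinarith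
  have hL1T : T ≤ L * T := by nlinarith
  have hTR' : T ≤ R := by nlinarith
  set r : ℤ := ((K : ℤ) + 1) * 2 ^ (j + 1) + 1 with hr
  have e2 : ((K : ℤ) + 1) * 2 ^ (j + 1) = 2 * (((K : ℤ) + 1) * 2 ^ j) := by rw [pow_succ]; ring
  have hrT : r ≤ T := by rw [hr, e2]; nlinarith
  have hr4 : r ≤ 4 * (((K : ℤ) + 1) * 2 ^ j) := by rw [hr, e2]; linarith
  have hr1 : 1 ≤ r := by rw [hr, e2]; linarith
  have hmix := mix_abs hQ hα hC₀ harm hL b hr1 (R := R) (A := D) (V := D ∩ Bq y r)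
    (F := NK D P σ κ) (x := y) (by
      refine le_trans ?_ hTR
      have : 0 ≤ L * L := by nlinarith
      nlinarith) Finset.inter_subset_left Finset.inter_subset_right
    (NK_loc (fun A hA e he => q1_heads (hP A hA) he) σ κ) hη₁ h1 hη₀ h0 (hSE y r R le_rfl)
  have hcnt := hmid D η₀ hη₀ y (((K : ℤ) + 1) * 2 ^ (j + 1)) (2 ^ j) R (by positivity) h2j
    (by push_cast; rw [pow_succ]; nlinarith) (by rw [e2]; nlinarith) hOC
  have habs : Ex Q D η₀ (fun ω => |NK D P σ κ ω|) ≤ M * C1 := by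
    refine le_trans ?_ (mul_le_mul_of_nonneg_left hcnt hM)
    rw [← Ex_mul_left]
    refine Ex_mono hQ0 fun S _ => ?_
    exact abs_NK_le hσ hκ fun A hA hPA _ => q1_Bg hA (hP A hPA)
  have hTp : (0 : ℝ) < T := by exact_mod_cast (by omega : 0 < T)
  have hRp : (0 : ℝ) < R := by exact_mod_cast (by omega : 0 < R)
  have hrp : (0 : ℝ) < r := by exact_mod_cast (by omega : 0 < r)
  have hrat : ((r : ℝ) / R) ^ (α / 2) ≤ (4 * ((K : ℝ) + 1)) ^ (α / 2) * ((2 : ℝ) ^ j / T) ^ (α / 2) := by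
    rw [← Real.mul_rpow (by positivity) (by positivity)]
    refine Real.rpow_le_rpow (by positivity) ?_ (by positivity)
    rw [div_le_iff₀ hRp]
    have k1 : (r : ℝ) ≤ 4 * (((K : ℝ) + 1) * 2 ^ j) := by exact_mod_cast hr4
    have k2 : (T : ℝ) ≤ R := by exact_mod_cast hTR'
    calc (r : ℝ) ≤ 4 * (((K : ℝ) + 1) * 2 ^ j) := k1
      _ = 4 * ((K : ℝ) + 1) * (2 ^ j / T) * T := by field_simp
      _ ≤ 4 * ((K : ℝ) + 1) * (2 ^ j / T) * R := mul_le_mul_of_nonneg_left k2 (by positivity)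
  have hc : 0 ≤ 8 * (2 + 2 ^ α) * C₀ := by positivity
  calc |Ex Q D η₁ (NK D P σ κ) - Ex Q D η₀ (NK D P σ κ)|
      ≤ 8 * (2 + 2 ^ α) * C₀ * ((r : ℝ) / R) ^ (α / 2) *
          Ex Q D η₀ (fun ω => |NK D P σ κ ω|) := hmix
    _ ≤ 8 * (2 + 2 ^ α) * C₀ * ((4 * ((K : ℝ) + 1)) ^ (α / 2) * ((2 : ℝ) ^ j / T) ^ (α / 2)) *
          (M * C1) := by
        refine mul_le_mul (mul_le_mul_of_nonneg_left hrat hc) habs
          (Ex_nonneg hQ0 fun S _ => abs_nonneg _) (by positivity)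
    _ = _ := by ring

end Vale.Agent.P167.N.CAQ.J
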