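import Vale.Agent.P167.N.Kit
import Vale.Agent.P167.N.CAQ.J2
import Vale.Agent.P167.N.CAQ.J3
import Vale.Agent.P167.N.MIX.RatK
import Vale.Agent.P167.N.Base.ArmShp
import Vale.Agent.P167.CAQ.J4

/-!
# P167, `q < 1`: Hölder continuity of the difference of two base potentials (port of `CAQ.J4`)
-/

set_option autoImplicit false

namespace Vale.Agent.P167.N.CAQ.J

open Vale.Agent.P167.CAQ.J Vale.Agent.P167.CAQ

open Finset Relation Vale.Agent.P167.FK Vale.Agent.P167.FKA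

open Vale.Agent.P167.BR

open Vale.Agent.P167.H167 (Geo sgm abs_sgm_le Q1 Q2 Bg choose_J geom_rpow)

variable {Q : ℝ} {D : Finset (ℤ × ℤ)} {ω η : Cfg} {p z z' : ℤ × ℤ} {κ : Finset Ed → ℝ} {K : ℕ} {m : ℤ}

/-- The large pieces. -/
theorem large_part (hQ : Kit Q) {α C2 : ℝ}
    (hfar : ∀ (b : Bool) (D : Finset (ℤ × ℤ)) (η : Cfg), Good η → ∀ (x : ℤ × ℤ) (L d R : ℤ), 1 ≤ L →
      L ≤ d → 2 * d ≤ R → Fz b x R D η → OC x R D η → ShE D R →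
      Ex Q D η (fun ω => ((Bg D x L (d : ℝ) ω).card : ℝ)) ≤ C2 * ((L : ℝ) / d) ^ α)
    (hG : Geo K m D p) (hz : z ∈ sites D) (hz' : z' ∈ sites D) {r R : ℤ} (hr1 : 1 ≤ r)
    (hzz : nm (z - z') ≤ r) (hrm : r ≤ m) {J : ℕ} (hKr : (K : ℤ) * r ≤ 2 ^ J)
    (hJR : 2 * (2 : ℤ) ^ J ≤ R) (b : Bool) {η : Cfg} (hη : Good η) (hf : Fz b z R D η)
    (hO : OC z R D η) (hSE : ShE D R) {κ : Finset Ed → ℝ} {M : ℝ} (hκ : ∀ A, |κ A| ≤ M) :
    |Ex Q D η (NK D (fun A => ¬ Small (2 ^ J) A) (sgm D p z z') κ)| ≤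
      C2 * M * (((K : ℝ) * r / 2 ^ J) ^ α) := by
  have hQ_pos := hQ.pos
  classical
  have hQ0 : 0 < Q := by linarith
  have hM : 0 ≤ M := (abs_nonneg _).trans (hκ ∅)
  have hK1' : (1 : ℤ) ≤ K := hG.one_le
  have h1 := hfar b D η hη z ((K : ℤ) * r) (2 ^ J) R (by nlinarith) hKr hJR hf hO hSE
  have h2 : |Ex Q D η (NK D (fun A => ¬ Small (2 ^ J) A) (sgm D p z z') κ)| ≤
      M * Ex Q D η (fun ω => ((Bg D z ((K : ℤ) * r) (((2 : ℤ) ^ J : ℤ) : ℝ) ω).card : ℝ)) := by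
    refine (abs_Ex_le hQ0 _).trans ?_
    rw [← Ex_mul_left]
    refine Ex_mono hQ0 fun S _ => ?_
    refine abs_NK_le (abs_sgm_le D p z z') hκ fun A hA hP h0 => ?_
    obtain ⟨e, he, h3⟩ := hG.sgm_visit hr1 hrm hz hz' hzz h0
    refine Finset.mem_filter.2 ⟨hA, ⟨e, he, h3⟩, ?_⟩
    push_cast
    exact hP
  calc _ ≤ M * (C2 * ((((K : ℤ) * r : ℤ) : ℝ) / (((2 : ℤ) ^ J : ℤ) : ℝ)) ^ α) :=
        h2.trans (mul_le_mul_of_nonneg_left h1 hM)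
    _ = _ := by push_cast; ring

/-- **Hölder continuity of the difference of two base potentials**, at the scale `R` of the box in
which the two bases agree (frozen arc of one colour, equal weights); with the inputs. -/
theorem eqj_aux (hQ : Kit Q) {α C₀ : ℝ} (hα : 0 < α) (hC₀ : 0 < C₀) (harm : H635.ArmShp Q α C₀)
    {L : ℤ} (hL : N.MIX.RatS Q L) {C1 : ℝ} (hC1 : 0 < C1)
    (hmid : ∀ (D : Finset (ℤ × ℤ)) (η : Cfg), Good η → ∀ (x : ℤ × ℤ) (L d R : ℤ), 0 ≤ L → 1 ≤ d →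
      L ≤ ((2 * (K + 1) : ℕ) : ℤ) * d → L + d ≤ R → OC x R D η →
      Ex Q D η (fun ω => ((Bg D x L (d : ℝ) ω).card : ℝ)) ≤ C1) {C2 : ℝ} (hC2 : 0 < C2)
    (hfar : ∀ (b : Bool) (D : Finset (ℤ × ℤ)) (η : Cfg), Good η → ∀ (x : ℤ × ℤ) (L d R : ℤ), 1 ≤ L →
      L ≤ d → 2 * d ≤ R → Fz b x R D η → OC x R D η → ShE D R →
      Ex Q D η (fun ω => ((Bg D x L (d : ℝ) ω).card : ℝ)) ≤ C2 * ((L : ℝ) / d) ^ α)
    (b : Bool) (hG : Geo K m D p) {η₁ η₀ : Cfg}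
    (hη₁ : Good η₁) (hη₀ : Good η₀) (hz : z ∈ sites D) {R : ℤ} (hRm : R ≤ m) (hf1 : Fz b z R D η₁)
    (hf0 : Fz b z R D η₀) (hO1 : OC z R D η₁) (hO0 : OC z R D η₀) (hSE : ShE D R)
    {κ₁ κ₀ : Finset Ed → ℝ} {M : ℝ}
    (hκ₁ : ∀ A, |κ₁ A| ≤ M) (hκ₀ : ∀ A, |κ₀ A| ≤ M)
    (heq : ∀ (ω : Cfg), ∀ A ∈ pcs ω D, (∀ e ∈ A, nm (hdv e - z) ≤ R) → κ₁ A = κ₀ A)
    (hz' : z' ∈ sites D) {T : ℤ} (hT0 : 0 < T) (hLT : L * (L * T) ≤ R / 2) (hT16 : 16 * T ≤ R)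
    (hr1 : 1 ≤ nm (z - z')) (hr64 : 64 * nm (z - z') ≤ R)
    (hrT : ((nm (z - z') : ℤ) : ℝ) ≤ 1 / (64 * ((K : ℝ) + 1) ^ 2) * T) :
    |(hB Q D η₁ p κ₁ z - hB Q D η₀ p κ₀ z) - (hB Q D η₁ p κ₁ z' - hB Q D η₀ p κ₀ z')| ≤
      M * ((2 * (8 * (2 + 2 ^ α) * C₀ * (4 * ((K : ℝ) + 1)) ^ (α / 2) * C1) *
        (1 / ((2 : ℝ) ^ (α / 2) - 1)) * 2 ^ (α / 2) + 2 * C2 * K ^ α) *
        (((nm (z - z') : ℤ) : ℝ) / T) ^ (α / 4)) := by
  have hQ_pos := hQ.pos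
  classical
  have hM : 0 ≤ M := (abs_nonneg _).trans (hκ₁ ∅)
  have hTp : (0 : ℝ) < T := by exact_mod_cast hT0
  have hK0 : (0 : ℝ) ≤ K := Nat.cast_nonneg _
  have hgp : 0 < 1 / ((2 : ℝ) ^ (α / 2) - 1) := by
    have := Real.one_lt_rpow (by norm_num : (1 : ℝ) < 2) (show 0 < α / 2 by positivity)
    exact one_div_pos.2 (by linarith)
  set g : ℝ := 1 / ((2 : ℝ) ^ (α / 2) - 1) with hg
  set C' : ℝ := 8 * (2 + 2 ^ α) * C₀ * (4 * ((K : ℝ) + 1)) ^ (α / 2) * C1 with hC'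
  have hC'p : 0 < C' := by positivity
  obtain ⟨J, hJ1, hJ2, hJT, hKr, hx, ha⟩ := choose_J hr1 hrT
  set r : ℤ := nm (z - z') with hr
  have hJm : (2 : ℤ) ^ J ≤ m := by omega
  have hsh : nm (z - z') + R / 2 ≤ R := by rw [← hr]; omega
  have hsh0 : nm (z - z) + R / 2 ≤ R := by
    rw [sub_self]
    have : nm (0 : ℤ × ℤ) = 0 := by simp [nm]
    rw [this]; omega
  have hσ1 : ∀ A, |sgm D p z z' A| ≤ 1 := abs_sgm_le D p z z'
  have h2J : (2 : ℤ) ^ (J - 1) ≤ 2 ^ J := pow_le_pow_right₀ (by norm_num) (by omega)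
  have hs1 : ∀ j < J, |Ex Q D η₁ (NK D (Q1 K z j) (sgm D p z z') κ₁) -
      Ex Q D η₀ (NK D (Q1 K z j) (sgm D p z z') κ₁)| ≤ C' * M * (((2 : ℝ) ^ j / T) ^ (α / 2)) :=
    fun j hj => one_scale hQ hα hC₀ harm hL hmid b hη₁ hη₀ (R := R / 2) hLT (hf1.shift hsh0)
      (hf0.shift hsh0) (hO0.shift hsh0) (hSE.mono (by omega)) (hJ2 j hj) (fun _ hA => hA) hσ1 hκ₁
  have hs2 : ∀ j < J, |Ex Q D η₁ (NK D (Q2 K z z' j) (sgm D p z z') κ₁) -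
      Ex Q D η₀ (NK D (Q2 K z z' j) (sgm D p z z') κ₁)| ≤ C' * M * (((2 : ℝ) ^ j / T) ^ (α / 2)) :=
    fun j hj => one_scale hQ hα hC₀ harm hL hmid b hη₁ hη₀ (R := R / 2) hLT (hf1.shift hsh)
      (hf0.shift hsh) (hO0.shift hsh) (hSE.mono (by omega)) (hJ2 j hj) (fun _ hA => hA.1) hσ1 hκ₁
  have hb1 : ∀ j < J, ((K : ℤ) + 1) * 2 ^ (j + 1) + r ≤ R := by
    intro j hj
    have h2 := hJ2 j hj
    rw [pow_succ]
    have h3 : 0 < ((K : ℤ) + 1) * 2 ^ j := by positivity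
    nlinarith
  have hκ1 : ∀ j < J, ∀ ω : Cfg, NK D (Q1 K z j) (sgm D p z z') κ₁ ω =
      NK D (Q1 K z j) (sgm D p z z') κ₀ ω := fun j hj ω =>
    NK_congr fun A hA hP => heq ω A hA fun e he => by
      have := hP.1 e he
      have := hb1 j hj
      linarith
  have hκ2 : ∀ j < J, ∀ ω : Cfg, NK D (Q2 K z z' j) (sgm D p z z') κ₁ ω =
      NK D (Q2 K z z' j) (sgm D p z z') κ₀ ω := fun j hj ω =>
    NK_congr fun A hA hP => heq ω A hA fun e he => by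
      have h1 := hP.1.1 e he
      have h4 := H45.nm_sub_le (hdv e) z' z
      rw [H45.nm_sub_comm z' z, ← hr] at h4
      have := hb1 j hj
      linarith
  rw [diff_eq hG hz hz' hJm Q η₁ η₀ hκ1 hκ2]
  have hsum := sum_le hα hTp hC'p.le hM hs1 hs2
  have hL1 := large_part hQ hfar hG hz hz' hr1 hr.ge (by omega) (J := J) (by omega) (R := R)
    (by omega) b hη₁ hf1 hO1 hSE hκ₁
  have hL0 := large_part hQ hfar hG hz hz' hr1 hr.ge (by omega) (J := J) (by omega) (R := R)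
    (by omega) b hη₀ hf0 hO0 hSE hκ₀
  set a : ℝ := (K : ℝ) * r / 2 ^ J with hadef
  have hrp : (0 : ℝ) < r := by exact_mod_cast (by omega : 0 < r)
  have ha0 : 0 ≤ a := by positivity
  have ha1 : a ≤ K * Real.sqrt ((r : ℝ) / T) := by
    have e : (2 : ℝ) ^ J = 2 * 2 ^ (J - 1) := by
      obtain ⟨i, rfl⟩ : ∃ i, J = i + 1 := ⟨J - 1, by omega⟩
      rw [Nat.add_sub_cancel, pow_succ]; ring
    have h1 : a = (((K : ℤ) * r : ℤ) : ℝ) / ((2 ^ (J - 1) : ℤ) : ℝ) / 2 := by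
      rw [hadef, e]; push_cast; field_simp
    rw [h1]
    linarith
  have hqp : 0 < (r : ℝ) / T := by positivity
  have hq1 : (r : ℝ) / T ≤ 1 := by
    rw [div_le_one hTp]
    have h1 : 1 / (64 * ((K : ℝ) + 1) ^ 2) * T ≤ 1 * T := by
      refine mul_le_mul_of_nonneg_right ?_ hTp.le
      rw [div_le_one (by positivity)]
      nlinarith
    linarith
  have hfin := fin_bound hα hqp hq1 (x := (2 : ℝ) ^ J / T) (by positivity) hx ha0 ha1 hK0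
    (A := 2 * C' * g) (by positivity) (B := 2 * C2) (by positivity)
  refine (abs_add_le _ _).trans ((add_le_add hsum ((abs_sub _ _).trans
    (add_le_add hL1 hL0))).trans ?_)
  calc 2 * C' * M * (g * ((2 : ℝ) ^ J / T) ^ (α / 2)) + (C2 * M * a ^ α + C2 * M * a ^ α)
      = M * (2 * C' * g * ((2 : ℝ) ^ J / T) ^ (α / 2) + 2 * C2 * a ^ α) := by ring
    _ ≤ _ := mul_le_mul_of_nonneg_left hfin hM

/-- **Hölder continuity of the difference of two base potentials**, at the scale `R` of the box in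
which the two bases agree (frozen arc of one colour, equal weights). -/
theorem eqj (hQ : Kit Q) (h : RSW Q) (K : ℕ) : ∃ C β δ : ℝ, 0 < C ∧ 0 < β ∧ 0 < δ ∧
    ∀ (b : Bool) (D : Finset (ℤ × ℤ)) (p : ℤ × ℤ) (m : ℤ), Geo K m D p → ∀ η₁ η₀ : Cfg,
    Good η₁ → Good η₀ → ∀ z ∈ sites D, ∀ R : ℤ, R ≤ m → Fz b z R D η₁ → Fz b z R D η₀ →
    OC z R D η₁ → OC z R D η₀ → ShE D R → ∀ (κ₁ κ₀ : Finset Ed → ℝ) (M : ℝ), (∀ A, |κ₁ A| ≤ M) →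
    (∀ A, |κ₀ A| ≤ M) →
    (∀ (ω : Cfg), ∀ A ∈ pcs ω D, (∀ e ∈ A, nm (hdv e - z) ≤ R) → κ₁ A = κ₀ A) →
    ∀ z' ∈ sites D, (nm (z - z') : ℝ) ≤ δ * R →
    |(hB Q D η₁ p κ₁ z - hB Q D η₀ p κ₀ z) - (hB Q D η₁ p κ₁ z' - hB Q D η₀ p κ₀ z')| ≤
      C * M * ((nm (z - z') : ℝ) / R) ^ β := by
  have hQ_pos := hQ.pos
  obtain ⟨α, C₀, hα, hC₀, harm⟩ := hQ.armShp
  obtain ⟨L, hL⟩ := hQ.ratS
  obtain ⟨C1, hC1, hmid⟩ := cnt_mid hQ h (2 * (K + 1))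
  obtain ⟨C2, hC2, hfar⟩ := cnt_far hQ h hα hC₀ harm
  have hL2 : 2 ≤ L := hL.1
  have hgp : 0 < 1 / ((2 : ℝ) ^ (α / 2) - 1) := by
    have := Real.one_lt_rpow (by norm_num : (1 : ℝ) < 2) (show 0 < α / 2 by positivity)
    exact one_div_pos.2 (by linarith)
  have hK0 : (0 : ℝ) ≤ K := Nat.cast_nonneg _
  have hKα : 0 ≤ (K : ℝ) ^ α := Real.rpow_nonneg hK0 _
  have hLp : (0 : ℝ) < L := by exact_mod_cast (by omega : 0 < L)
  set B : ℝ := 2 * (8 * (2 + 2 ^ α) * C₀ * (4 * ((K : ℝ) + 1)) ^ (α / 2) * C1) *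
    (1 / ((2 : ℝ) ^ (α / 2) - 1)) * 2 ^ (α / 2) + 2 * C2 * K ^ α with hB
  have hB0 : 0 < B := by positivity
  refine ⟨B * (8 * (L : ℝ) ^ 2) ^ (α / 4), α / 4,
    1 / (64 * ((K : ℝ) + 1) ^ 2 * (8 * L ^ 2)), by positivity, by positivity, by positivity, ?_⟩
  intro b D p m hG η₁ η₀ hη₁ hη₀ z hz R hRm hf1 hf0 hO1 hO0 hSE κ₁ κ₀ M hκ₁ hκ₀ heq z' hz' hzz
  have hM : 0 ≤ M := (abs_nonneg _).trans (hκ₁ ∅)
  rcases (H45.nm_nonneg (z - z')).eq_or_lt with hr0' | hr0'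
  · -- the same point
    have e : z = z' := by
      have h1 : nm (z - z') ≤ 0 := by rw [← hr0']
      simp only [nm, Prod.fst_sub, Prod.snd_sub, max_le_iff, abs_le] at h1
      ext <;> omega
    rw [← hr0', ← e, sub_self, abs_zero]
    simp only [Int.cast_zero, zero_div]
    rw [Real.zero_rpow (by positivity), mul_zero]
  have hr1 : 1 ≤ nm (z - z') := hr0'
  obtain ⟨T, hT0, hTR, hrT, hLT, hT16, hr64⟩ := numT hL2 hr1 hzz
  have hmain := eqj_aux hQ hα hC₀ harm hL hC1 hmid hC2 hfar b hG hη₁ hη₀ hz hRm hf1 hf0 hO1 hO0 hSE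
    hκ₁ hκ₀ heq hz' hT0 hLT hT16 hr1 hr64 hrT
  refine hmain.trans ?_
  have hTp : (0 : ℝ) < T := by exact_mod_cast hT0
  have hRp : (0 : ℝ) < R := by exact_mod_cast (by omega : 0 < R)
  have hrp : (0 : ℝ) < nm (z - z') := by exact_mod_cast hr0'
  have hqR : ((nm (z - z') : ℝ) / T) ^ (α / 4) ≤
      (8 * (L : ℝ) ^ 2) ^ (α / 4) * ((nm (z - z') : ℝ) / R) ^ (α / 4) := by
    rw [← Real.mul_rpow (by positivity) (by positivity)]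
    refine Real.rpow_le_rpow (by positivity) ?_ (by positivity)
    rw [div_le_iff₀ hTp, mul_comm (8 * (L : ℝ) ^ 2), mul_assoc, div_mul_eq_mul_div,
      le_div_iff₀ hRp]
    exact mul_le_mul_of_nonneg_left hTR hrp.le
  calc M * (B * ((nm (z - z') : ℝ) / T) ^ (α / 4))
      ≤ M * (B * ((8 * (L : ℝ) ^ 2) ^ (α / 4) * ((nm (z - z') : ℝ) / R) ^ (α / 4))) :=
        mul_le_mul_of_nonneg_left (mul_le_mul_of_nonneg_left hqR hB0.le) hM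
    _ = _ := by ring

end Vale.Agent.P167.N.CAQ.J
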