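import Vale.Agent.P167.N.Kit
import Vale.Agent.P167.N.CAQ.J4
import Vale.Agent.P167.N.H542.Q.Fam
import Vale.Agent.P167.N.H542.Q.FamB
import Vale.Agent.P167.CAQ.J6

/-!
# P167, `q < 1`: the Dobrushin functionals (port of `CAQ.J6`)
-/

set_option autoImplicit false

namespace Vale.Agent.P167.N.CAQ.J

open Vale.Agent.P167.CAQ.J Vale.Agent.P167.CAQ

open Finset Relation Vale.Agent.P167.FK Vale.Agent.P167.FKA

open Vale.Agent.P167.BR

open Vale.Agent.P145.FB (PStep)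

open Vale.Agent.P167.E6 (IsPolygon Encloses dir face)

open Vale.Agent.P167.H718 (Dob Chordless etaW opW mem_opW OutC exists_bd face_min good_etaW IsXY IsCl
  Cl isCl_strand Ex_eq dob_etaW dir4)

open Vale.Agent.P167.H542.Q (thB)

section rot

variable {n n' : ℕ} {q : ZMod n → ℤ × ℤ} {q' : ZMod n' → ℤ × ℤ} {D : Finset (ℤ × ℤ)}

end rot

section

variable {n k k' : ℕ} {q : ZMod n → ℤ × ℤ} {D : Finset (ℤ × ℤ)} {z : ℤ × ℤ} {R : ℤ} {b : Bool}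
  {η η' : Cfg}

end

open Vale.Agent.P167.H542.Q (cB) in
open Vale.Agent.P167.N.H542.Q (cB_pos phs_thB) in
theorem abs_tan_thB {θ β : ℝ} (h0 : 0 < θ) (h1 : Ang θ)
    (hβ : Real.cos (θ / 2 + β) = Real.sin θ) {n k : ℕ} {q : ZMod n → ℤ × ℤ}
    {D : Finset (ℤ × ℤ)} (A : Finset Ed) :
    |Real.tan (thB θ β q D k A)| ≤ 1 / cB θ := by
  have h1_lt := h1.lt
  have h2 := (phs_thB (D := D) (q := q) (k := k) h0 h1 hβ).cs A
  have h3 := cB_pos h0 h1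
  rw [Real.tan_eq_sin_div_cos, abs_div, abs_of_pos (h3.trans_le h2)]
  exact div_le_div₀ zero_le_one (Real.abs_sin_le_one _) h3 h2

/-- **Q-EQJ for the Dobrushin functionals** of the polygons around an enlarged lattice polygon: the
difference of two base potentials is Hölder continuous at the scale `R` of a box in which the two
boundary conditions are both free or both wired. -/
theorem eqj_dob {θ β : ℝ} (h0 : 0 < θ) (h1 : Ang θ)
    (hβ : Real.cos (θ / 2 + β) = Real.sin θ) (hRSW : RSW (2 * Real.cos θ)) :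
    ∃ C γ δ : ℝ, 0 < C ∧ 0 < γ ∧ 0 < δ ∧ ∀ {l : ℕ} {p : ZMod l → ℤ × ℤ} {S : Finset (ℤ × ℤ)},
    IsPolygon p → Encloses p S → ∀ {N n : ℕ} {q : ZMod n → ℤ × ℤ}, IsPolygon q →
    Encloses q (CA.enl S N) → ∀ {k₁ k₀ : ℕ}, k₁ ≤ n → k₀ ≤ n → ∀ {η₁ η₀ : Cfg},
    Dob η₁ (CA.enl S N) q k₁ → Dob η₀ (CA.enl S N) q k₀ → ∀ (b : Bool) (i : ZMod n),
    ∀ z ∈ sites (CA.enl S N), ∀ R : ℤ, 1 ≤ R → 16 * R ≤ N → ArcB b q k₁ z (R + 2) →
    ArcB b q k₀ z (R + 2) → ∀ z' ∈ sites (CA.enl S N), (nm (z - z') : ℝ) ≤ δ * R →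
    |(hB (2 * Real.cos θ) (CA.enl S N) η₁ (q i)
          (fun A => Real.tan (thB θ β q (CA.enl S N) k₁ A)) z -
        hB (2 * Real.cos θ) (CA.enl S N) η₀ (q i)
          (fun A => Real.tan (thB θ β q (CA.enl S N) k₀ A)) z) -
      (hB (2 * Real.cos θ) (CA.enl S N) η₁ (q i)
          (fun A => Real.tan (thB θ β q (CA.enl S N) k₁ A)) z' -
        hB (2 * Real.cos θ) (CA.enl S N) η₀ (q i)
          (fun A => Real.tan (thB θ β q (CA.enl S N) k₀ A)) z')| ≤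
      C * ((nm (z - z') : ℝ) / R) ^ γ := by
  have h1_lt := h1.lt
  have hQ0 := H542.Q.BD.cos_pos h0 h1
  have hQ1 := H542.Q.BD.one_le h0 h1
  obtain ⟨C, γ, δ, hC, hγ, hδ, key⟩ := eqj hQ1 hRSW 2
  have hc := H542.Q.cB_pos h0 h1
  refine ⟨C * (1 / H542.Q.cB θ), γ, δ, by positivity, hγ, hδ, ?_⟩
  intro l p S hp hE N n q hq hD k₁ k₀ hk₁ hk₀ η₁ η₀ hη₁ hη₀ b i z hz R hR1 hRN ha₁ ha₀ z' hz' hzz
  have hN : 0 < N := by omega
  have hch := chordless_enl hp hE (by omega) hq hD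
  have e2 : R + 1 + 1 = R + 2 := by ring
  obtain ⟨ξ₁, hξ₁, hf₁⟩ := exists_fz (R := R + 1) hq hD hch (by rw [e2]; exact ha₁)
  obtain ⟨ξ₀, hξ₀, hf₀⟩ := exists_fz (R := R + 1) hq hD hch (by rw [e2]; exact ha₀)
  have hO₁ := oc_of_fz (r := R) hp hE hN (by omega) (by omega) hf₁
  have hO₀ := oc_of_fz (r := R) hp hE hN (by omega) (by omega) hf₀
  have m1 : ∀ {z : ℤ × ℤ}, _ := fun {z : ℤ × ℤ} => hB_dob hq hD hk₁ hη₁ hξ₁ hQ0 (q i) z
    (fun A => Real.tan (thB θ β q (CA.enl S N) k₁ A))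
  have m0 : ∀ {z : ℤ × ℤ}, _ := fun {z : ℤ × ℤ} => hB_dob hq hD hk₀ hη₀ hξ₀ hQ0 (q i) z
    (fun A => Real.tan (thB θ β q (CA.enl S N) k₀ A))
  rw [m1, m0, m1, m0]
  refine key b _ _ R (geo_poly hp hE hq hD hR1 hRN i) ξ₁ ξ₀ hξ₁.good hξ₀.good z hz R le_rfl
    (hf₁.mono (by omega)) (hf₀.mono (by omega)) hO₁ hO₀ (she_enl hp hE hN (by omega)) _ _ _ (abs_tan_thB h0 h1 hβ)
    (abs_tan_thB h0 h1 hβ) (fun ω A hA hAR => ?_) z' hz' hzz
  have hm : ∀ {k : ℕ}, ArcB b q k z (R + 2) → ArcB b q k z (R + 1) := fun h j hj hjz =>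
    h j hj (by omega)
  show Real.tan _ = Real.tan _
  rw [thB_congr hq hD (hm ha₁) (hm ha₀) θ β hA hAR]

end Vale.Agent.P167.N.CAQ.J
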