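import Vale.Agent.P167.N.Kit
import Vale.Agent.P167.N.CAQ.J6
import Vale.Agent.P167.N.H542.Q.FamB
import Vale.Agent.P167.CAQ.J7

/-! generated from Vale.Agent.P167.CAQ.J7 (q < 1 port) -/

set_option autoImplicit false

namespace Vale.Agent.P167.N.CAQ

open Vale.Agent.P167.CAQ

open MeasureTheory Filter Topology Set Complex Metric

open Vale.Agent.P167.BR (sites)

open Vale.Agent.P167.FK (Ex RSW)

open Vale.Agent.P167.CA (Dat cms)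

open Vale.Agent.P167.E6 (IsPolygon Encloses)

open Vale.Agent.P167.H718 (Dob)

open Vale.Agent.P167.H542.Q (thB BD)

open Vale.Agent.P167.CAQ.J (hB ArcB eqj_dob poly_rot)

/-- The potential of the charge `0` is `hB`. -/
theorem famB_hB {S : Dat} {θ β : ℝ} (X : BD S θ β) (h0 : 0 < θ) (h1 : Ang θ)
    (hβ : Real.cos (θ / 2 + β) = Real.sin θ) (n : ℕ) (z : ℤ × ℤ) :
    (Vale.Agent.P167.N.H542.Q.BD.famB X h0 h1 hβ).H n (fun _ => 0) z = hB (2 * Real.cos θ) (S.D n) (X.η n) (X.q n 0)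
      (fun A => Real.tan (thB θ β (X.q n) (S.D n) (X.k n) A)) z := by
  have h1_lt := h1.lt
  classical
  rw [Vale.Agent.P167.N.H542.Q.BD.famB_H0]
  unfold hB
  congr 1
  funext ω
  rw [Finset.sum_filter]
  refine Finset.sum_congr rfl fun A _ => ?_
  split_ifs <;> simp

/-- **[Q-EQJ]**: the hypothesis `heq` of `two_limit` for two Dobrushin families. -/
theorem eqj_BD {θ β : ℝ} (h0 : 0 < θ) (h1 : Ang θ)
    (hβ : Real.cos (θ / 2 + β) = Real.sin θ) (hRSW : RSW (2 * Real.cos θ)) {S : Dat}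
    (X₁ X₀ : BD S θ β) (hL : X₁.L = X₀.L) (hb : ∀ᶠ n in X₁.L, X₁.q n 0 = X₀.q n 0) (b : Bool)
    {K : Set ℂ} {C₀ : ℝ} (hbad : ∀ᶠ n : ℕ in X₁.L, ∀ j < X₁.N n,
      ¬ Same b (X₁.k n) (X₀.k n) j → infDist (E6.pt (X₁.q n j) / n) K ≤ C₀ / n) :
    ∃ C β' d : ℝ, 0 < β' ∧ 0 < d ∧ d ≤ 1 / 2 ∧ ∀ᶠ n : ℕ in ((Vale.Agent.P167.N.H542.Q.BD.famB X₁) h0 h1 hβ).L,
      ∀ z ∈ sites (S.D n), ∀ z' ∈ sites (S.D n),
      ‖E6.pt z - E6.pt z'‖ / n ≤ d * infDist (E6.pt z / n) K →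
      |dH ((Vale.Agent.P167.N.H542.Q.BD.famB X₁) h0 h1 hβ) ((Vale.Agent.P167.N.H542.Q.BD.famB X₀) h0 h1 hβ) n z -
          dH ((Vale.Agent.P167.N.H542.Q.BD.famB X₁) h0 h1 hβ) ((Vale.Agent.P167.N.H542.Q.BD.famB X₀) h0 h1 hβ) n z'| ≤
        C * (‖E6.pt z - E6.pt z'‖ / n / infDist (E6.pt z / n) K) ^ β' := by
  have h1_lt := h1.lt
  obtain ⟨C, γ, δ, hC, hγ, hδ, key⟩ := Vale.Agent.P167.N.CAQ.J.eqj_dob h0 h1 hβ hRSW
  obtain ⟨C', d, hd0, hd1, up⟩ := scale_up hC hγ hδ S K C₀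
  refine ⟨C', γ, d, hγ, hd0, hd1, ?_⟩
  show ∀ᶠ n : ℕ in X₁.L, _
  filter_upwards [X₁.poly, X₁.enc, X₁.kle, X₁.dob, hL ▸ X₀.poly, hL ▸ X₀.enc, hL ▸ X₀.kle,
    hL ▸ X₀.dob, hb, hbad, (eventually_gt_atTop 0).filter_mono X₁.le] with
    n a1 a2 a3 a4 b1 b2 b3 b4 hbn hbadn hn
  have h2 := two_poly a1 a2 b1 b2 hbn a3 b3 a4 b4 key b
  have h3 := up n hn b (X₁.q n) (X₁.k n) (X₀.k n)
    (dH ((Vale.Agent.P167.N.H542.Q.BD.famB X₁) h0 h1 hβ) ((Vale.Agent.P167.N.H542.Q.BD.famB X₀) h0 h1 hβ) n) hbadn ?_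
  · exact h3
  intro z hz R hR1 hR16 ha1 ha0 z' hz' hzz
  have h4 := h2 z hz R hR1 hR16 ha1 ha0 z' hz' hzz
  unfold dH
  rw [famB_hB, famB_hB, famB_hB, famB_hB]
  exact h4

end Vale.Agent.P167.N.CAQ
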